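import Mathlib
import Vale.Agent.Lib.P162.Defs
import Vale.Agent.Lib.P162.Law

namespace Vale.Agent.Lib.P162.H6

open Finset BigOperators

/-- one more shuffle in front: the first coin vector is split off -/
theorem shuffles_cons (h T : ℕ) (c : ZMod h → Bool) (cs : Fin T → ZMod h → Bool)
    (p : ZMod (2 * h)) :
    shuffles h (T + 1) (Fin.cons c cs : Fin (T + 1) → ZMod h → Bool) p
      = shuffles h T cs (move h c p) := by
  show shuffles h T (fun i => (Fin.cons c cs : Fin (T + 1) → ZMod h → Bool) i.succ)
      (move h ((Fin.cons c cs : Fin (T + 1) → ZMod h → Bool) 0) p) = shuffles h T cs (move h c p)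
  have e1 : (fun i => (Fin.cons c cs : Fin (T + 1) → ZMod h → Bool) i.succ) = cs := by
    funext i
    simp only [Fin.cons_succ]
  have e2 : (Fin.cons c cs : Fin (T + 1) → ZMod h → Bool) 0 = c := by
    simp only [Fin.cons_zero]
  rw [e1, e2]

/-- a sum over sequences of length `T + 1` is a double sum over the first entry and the rest -/
theorem sum_cons_split (h T : ℕ) [NeZero h] (F : (Fin (T + 1) → ZMod h → Bool) → ℝ) :
    ∑ cs, F cs = ∑ c : ZMod h → Bool, ∑ cs' : Fin T → ZMod h → Bool,
      F (Fin.cons c cs' : Fin (T + 1) → ZMod h → Bool) := by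
  have e := Equiv.sum_comp (Fin.consEquiv (fun _ : Fin (T + 1) => ZMod h → Bool)) F
  rw [← e]
  exact Fintype.sum_prod_type' (fun (c : ZMod h → Bool) (cs' : Fin T → ZMod h → Bool) =>
    F (Fin.cons c cs' : Fin (T + 1) → ZMod h → Bool))

/-- counting form of one step: coin sequences of length `T + 1` moving `x` to `y`, grouped by
the positions `u` after the first shuffle -/
theorem count_succ (h k : ℕ) [NeZero h] (T : ℕ) (x y : Fin k → ZMod (2 * h)) :
    ((univ.filter fun cs : Fin (T + 1) → ZMod h → Bool =>
        ∀ j, shuffles h (T + 1) cs (x j) = y j).card : ℝ)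
      = ∑ u : Fin k → ZMod (2 * h),
          ((univ.filter fun c : ZMod h → Bool => ∀ j, move h c (x j) = u j).card : ℝ)
          * ((univ.filter fun cs : Fin T → ZMod h → Bool =>
              ∀ j, shuffles h T cs (u j) = y j).card : ℝ) := by
  rw [Finset.natCast_card_filter, sum_cons_split]
  have hR : ∀ u : Fin k → ZMod (2 * h),
      ((univ.filter fun c : ZMod h → Bool => ∀ j, move h c (x j) = u j).card : ℝ)
        * ((univ.filter fun cs : Fin T → ZMod h → Bool =>
            ∀ j, shuffles h T cs (u j) = y j).card : ℝ)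
      = ∑ c : ZMod h → Bool, ∑ cs' : Fin T → ZMod h → Bool,
          (if u = (fun j => move h c (x j)) then
            (if ∀ j, shuffles h T cs' (u j) = y j then (1 : ℝ) else 0) else 0) := by
    intro u
    rw [Finset.natCast_card_filter, Finset.natCast_card_filter, Finset.sum_mul_sum]
    apply Finset.sum_congr rfl
    intro c _
    apply Finset.sum_congr rfl
    intro cs' _
    by_cases hc : ∀ j, move h c (x j) = u j
    · have hu : u = (fun j => move h c (x j)) := (funext hc).symm
      rw [if_pos hc, if_pos hu, one_mul]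
    · have hu : ¬ u = (fun j => move h c (x j)) := fun hu => hc (fun j => (congrFun hu j).symm)
      rw [if_neg hc, if_neg hu, zero_mul]
  rw [Finset.sum_congr rfl (fun u _ => hR u)]
  symm
  conv_lhs => rw [Finset.sum_comm]
  apply Finset.sum_congr rfl
  intro c _
  conv_lhs => rw [Finset.sum_comm]
  apply Finset.sum_congr rfl
  intro cs' _
  rw [Finset.sum_ite_eq' univ (fun j => move h c (x j))
    (fun u => if ∀ j, shuffles h T cs' (u j) = y j then (1 : ℝ) else 0), if_pos (mem_univ _)]
  apply if_congr _ rfl rfl
  constructor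
  · intro hj j
    rw [shuffles_cons]
    exact hj j
  · intro hj j
    rw [← shuffles_cons]
    exact hj j

/-- one-step recursion for the law of the tracked cards -/
theorem law_succ (h k : ℕ) [NeZero h] (T : ℕ) (x y : Fin k → ZMod (2 * h)) :
    trackedLaw h k (T + 1) x y
      = ∑ u : Fin k → ZMod (2 * h), stepProb h k x u * trackedLaw h k T u y := by
  show ((univ.filter fun cs : Fin (T + 1) → ZMod h → Bool =>
        ∀ j, shuffles h (T + 1) cs (x j) = y j).card : ℝ) / 2 ^ (h * (T + 1))
      = ∑ u : Fin k → ZMod (2 * h),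
          (((univ.filter fun c : ZMod h → Bool => ∀ j, move h c (x j) = u j).card : ℝ) / 2 ^ h)
          * (((univ.filter fun cs : Fin T → ZMod h → Bool =>
              ∀ j, shuffles h T cs (u j) = y j).card : ℝ) / 2 ^ (h * T))
  rw [count_succ, Finset.sum_div]
  apply Finset.sum_congr rfl
  intro u _
  have e : (2 : ℝ) ^ (h * (T + 1)) = 2 ^ h * 2 ^ (h * T) := by
    rw [← pow_add]
    congr 1
    ring
  rw [e]
  field_simp

/-- the law for no shuffle at all -/
theorem law_zero (h k : ℕ) [NeZero h] (x y : Fin k → ZMod (2 * h)) :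
    trackedLaw h k 0 x y = if x = y then 1 else 0 := by
  show ((univ.filter fun cs : Fin 0 → ZMod h → Bool =>
        ∀ j, shuffles h 0 cs (x j) = y j).card : ℝ) / 2 ^ (h * 0) = if x = y then 1 else 0
  by_cases hxy : x = y
  · have hf : (univ.filter fun cs : Fin 0 → ZMod h → Bool =>
        ∀ j, shuffles h 0 cs (x j) = y j) = univ := by
      apply Finset.filter_true_of_mem
      intro cs _ j
      exact congrFun hxy j
    rw [hf, if_pos hxy]
    simp
  · have hf : (univ.filter fun cs : Fin 0 → ZMod h → Bool =>
        ∀ j, shuffles h 0 cs (x j) = y j) = ∅ := by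
      apply Finset.filter_false_of_mem
      intro cs _ hcs
      exact hxy (funext hcs)
    rw [hf, if_neg hxy]
    simp

theorem law_eq_pow (h k : ℕ) [NeZero h] (T : ℕ) (x y : Fin k → ZMod (2 * h)) :
    trackedLaw h k T x y = (Kmat h k ^ T) x y := by
  induction T generalizing x with
  | zero =>
    rw [law_zero, pow_zero, Matrix.one_apply]
  | succ T ih =>
    rw [law_succ, pow_succ', Matrix.mul_apply]
    apply Finset.sum_congr rfl
    intro u _
    rw [ih u]
    rfl

end Vale.Agent.Lib.P162.H6
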