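import Mathlib
import Vale.Agent.Lib.P162.Defs

namespace Vale.Agent.Lib.P162.H6

open Finset BigOperators

/-- the condition `a + u = y` in `ZMod (2 h)` is a congruence condition on the natural number `u` -/
theorem count_filter_eq (h : ℕ) [NeZero h] (M : ℕ) (a y : ZMod (2 * h)) :
    (range M).filter (fun u : ℕ => a + (u : ZMod (2 * h)) = y)
      = (range M).filter (fun u : ℕ => u ≡ (y - a).val [MOD 2 * h]) := by
  apply Finset.filter_congr
  intro u _
  rw [← ZMod.natCast_eq_natCast_iff, ZMod.natCast_zmod_val]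
  constructor
  · intro hu
    rw [← hu]
    ring
  · intro hu
    rw [hu]
    ring

/-- the number of `u < M` in one residue class modulo `n` -/
theorem count_card_eq (n : ℕ) (hn : 0 < n) (M v : ℕ) :
    ((range M).filter (fun u : ℕ => u ≡ v [MOD n])).card
      = M / n + if v % n < M % n then 1 else 0 := by
  rw [← Nat.count_eq_card_filter_range, Nat.count_modEq_card M hn v]

/-- the count `c` of one residue class below `M` satisfies `c n ≤ M + n` and `M ≤ c n + n` -/
theorem count_card_bounds (n : ℕ) (hn : 0 < n) (M v : ℕ) :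
    ((range M).filter (fun u : ℕ => u ≡ v [MOD n])).card * n ≤ M + n ∧
      M ≤ ((range M).filter (fun u : ℕ => u ≡ v [MOD n])).card * n + n := by
  rw [count_card_eq n hn M v]
  have h1 : M / n * n ≤ M := Nat.div_mul_le_self M n
  have h2 : M < (M / n + 1) * n := Nat.lt_mul_of_div_lt (Nat.lt_succ_self _) hn
  constructor
  · split_ifs
    · nlinarith
    · nlinarith
  · split_ifs
    · nlinarith
    · nlinarith

theorem count_le_one (h : ℕ) [NeZero h] (m : ℕ) (hm : 2 ^ m ≤ 2 * h) (a y : ZMod (2 * h)) :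
    ((range (2 ^ m)).filter (fun u : ℕ => a + (u : ZMod (2 * h)) = y)).card ≤ 1 := by
  rw [count_filter_eq]
  apply Finset.card_le_one.2
  intro u hu v hv
  rw [mem_filter, mem_range] at hu hv
  have huv : u ≡ v [MOD 2 * h] := hu.2.trans hv.2.symm
  exact Nat.ModEq.eq_of_lt_of_lt huv (lt_of_lt_of_le hu.1 hm) (lt_of_lt_of_le hv.1 hm)

theorem count_close (h : ℕ) [NeZero h] (m : ℕ) (a y : ZMod (2 * h)) :
    |(((range (2 ^ m)).filter (fun u : ℕ => a + (u : ZMod (2 * h)) = y)).card : ℝ) / 2 ^ m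
        - 1 / (2 * h : ℝ)| ≤ 1 / 2 ^ m := by
  have hh : 0 < h := Nat.pos_of_ne_zero (NeZero.ne h)
  have hn : 0 < 2 * h := by positivity
  rw [count_filter_eq]
  obtain ⟨b1, b2⟩ := count_card_bounds (2 * h) hn (2 ^ m) (y - a).val
  generalize ((range (2 ^ m)).filter (fun u : ℕ => u ≡ (y - a).val [MOD 2 * h])).card = N at b1 b2
  have hhR : (0 : ℝ) < 2 * (h : ℝ) := by positivity
  have hP : (0 : ℝ) < (2 : ℝ) ^ m := by positivity
  have c1 : (N : ℝ) * (2 * (h : ℝ)) ≤ (2 : ℝ) ^ m + 2 * (h : ℝ) := by exact_mod_cast b1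
  have c2 : (2 : ℝ) ^ m ≤ (N : ℝ) * (2 * (h : ℝ)) + 2 * (h : ℝ) := by exact_mod_cast b2
  have key : (N : ℝ) / 2 ^ m - 1 / (2 * (h : ℝ))
      = ((N : ℝ) * (2 * (h : ℝ)) - 2 ^ m) / (2 ^ m * (2 * (h : ℝ))) := by
    field_simp
  rw [key, abs_le]
  constructor
  · rw [le_div_iff₀ (by positivity)]
    have e : -(1 / (2 : ℝ) ^ m) * (2 ^ m * (2 * (h : ℝ))) = -(2 * (h : ℝ)) := by
      field_simp
    rw [e]
    linarith
  · rw [div_le_iff₀ (by positivity)]
    have e : 1 / (2 : ℝ) ^ m * (2 ^ m * (2 * (h : ℝ))) = 2 * (h : ℝ) := by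
      field_simp
    rw [e]
    linarith

end Vale.Agent.Lib.P162.H6
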